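import Vale.Agent.P017.R3.Defs
import Vale.Agent.P017.R2.H816.Red

/-!
# P017, module B5: dictionary between the symbols and the random matrix model
-/

open Finset

namespace Vale.Agent.P017.R3.H224

open Vale.Agent.P017.H185 (Redei local_symm)
open Vale.Agent.P017.R2.H985 (bit PF Pat sym Mat cork)
open Vale.Agent.P017.R2.H816 (bit_self)

theorem mod4_of_odd {q : ℕ} (h : Odd q) : q % 4 = 1 ∨ q % 4 = 3 := by
  obtain ⟨k, hk⟩ := h
  omega

/-- reciprocity for the bits -/
theorem bit_rec {a b : ℕ} (ha : a.Prime) (hb : b.Prime) (ha2 : a ≠ 2) (hb2 : b ≠ 2) (hab : a ≠ b) :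
    bit (a : ℤ) b + bit (b : ℤ) a =
      (if a % 4 = 3 then 1 else 0) * (if b % 4 = 3 then 1 else 0) := by
  have hao : Odd a := ha.odd_of_ne_two ha2
  have hbo : Odd b := hb.odd_of_ne_two hb2
  have hne : jacobiSym (a : ℤ) b ≠ 0 := R2.H816.jac_ne ha hb hab
  rcases mod4_of_odd hao with h1 | h1
  · rw [if_neg (by omega), zero_mul]
    have h := jacobiSym.quadratic_reciprocity_one_mod_four h1 hbo
    unfold bit
    rw [h]
    exact CharTwo.add_self_eq_zero _
  · rcases mod4_of_odd hbo with h2 | h2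
    · rw [if_neg (c := (b % 4 = 3)) (by omega), mul_zero]
      have h := jacobiSym.quadratic_reciprocity_one_mod_four h2 hao
      unfold bit
      rw [h]
      exact CharTwo.add_self_eq_zero _
    · rw [if_pos h1, if_pos h2, one_mul]
      have h := jacobiSym.quadratic_reciprocity_three_mod_four h1 h2
      unfold bit
      rcases jacobiSym.trichotomy (a : ℤ) b with h' | h' | h'
      · exact absurd h' hne
      · have h3 : jacobiSym (b : ℤ) a = -1 := by
          rw [h] at h'
          omega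
        rw [h', h3]
        decide
      · have h3 : jacobiSym (b : ℤ) a = 1 := by
          rw [h] at h'
          omega
        rw [h', h3]
        decide

theorem AA_diag (n : ℕ) (q : PF n) : AA n q q = 0 := by
  unfold AA
  rw [if_pos rfl]

theorem AA_off {n : ℕ} {q q' : PF n} (h : q' ≠ q) : AA n q q' = bit ((q' : ℕ) : ℤ) (q : ℕ) := by
  unfold AA
  rw [if_neg h]

theorem pf_ne_two {n : ℕ} (hodd : Odd n) (q : PF n) : (q : ℕ) ≠ 2 := by
  intro hq
  have h2 : 2 ∣ n := hq ▸ Nat.dvd_of_mem_primeFactors q.2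
  exact (Nat.not_even_iff_odd.mpr hodd) (even_iff_two_dvd.mpr h2)

theorem rec_AA (n : ℕ) (hodd : Odd n) : Rec (AA n) (mu n) := by
  intro a b hab
  rw [AA_off hab.symm, AA_off hab, add_comm]
  exact bit_rec (Nat.prime_of_mem_primeFactors a.2) (Nat.prime_of_mem_primeFactors b.2)
    (pf_ne_two hodd a) (pf_ne_two hodd b) (fun h => hab (Subtype.ext h))

theorem Mat_eq (n : ℕ) (w : Pat n) : Mat n w = AA n + Matrix.diagonal
    (w + fun q : PF n => ∑ r ∈ univ.erase q, bit ((r : ℕ) : ℤ) (q : ℕ)) := by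
  ext q q'
  rw [Matrix.add_apply]
  unfold Mat
  by_cases h : q' = q
  · subst h
    rw [if_pos rfl, AA_diag, Matrix.diagonal_apply_eq, zero_add]
    rfl
  · rw [if_neg h, AA_off h, Matrix.diagonal_apply_ne _ (fun h' => h h'.symm), add_zero]

theorem sum_cork (n : ℕ) (g : ℕ → ℝ) : ∑ w : Pat n, g (cork n w) =
    ∑ u : PF n → ZMod 2, g (ck (AA n + Matrix.diagonal u)) := by
  refine Fintype.sum_equiv
    (Equiv.addRight (fun q : PF n => ∑ r ∈ univ.erase q, bit ((r : ℕ) : ℤ) (q : ℕ))) _ _ fun w => ?_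
  unfold cork ck
  rw [Mat_eq]
  rfl

theorem prob_mem : ∀ (ε : List (ZMod 2)) (V : Type) [Fintype V] [DecidableEq V]
    (M : Matrix V V (ZMod 2)) (μ : V → ZMod 2), 0 ≤ prob ε V M μ ∧ prob ε V M μ ≤ 1
  | [], V, _, _, M, μ => by
    unfold prob
    split_ifs <;> norm_num
  | e :: ε, V, _, _, M, μ => by
    unfold prob
    have h := fun (φ : V → ZMod 2) (w : ZMod 2) =>
      prob_mem ε (Option V) (ext M φ (φ + e • μ) w) (extv μ e)
    constructor
    · exact div_nonneg (sum_nonneg fun φ _ => sum_nonneg fun w _ => (h φ w).1) (by positivity)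
    · rw [div_le_one (by positivity)]
      calc ∑ φ : V → ZMod 2, ∑ w : ZMod 2, prob ε (Option V) (ext M φ (φ + e • μ) w) (extv μ e)
          ≤ ∑ φ : V → ZMod 2, ∑ w : ZMod 2, (1 : ℝ) :=
            sum_le_sum fun φ _ => sum_le_sum fun w _ => (h φ w).2
        _ = 2 ^ (Fintype.card V + 1) := by
            rw [sum_const, sum_const, card_univ, card_univ, Fintype.card_fun, ZMod.card]
            simp only [nsmul_eq_mul, mul_one]
            push_cast
            ring

theorem avg_mem {V : Type} [Fintype V] [DecidableEq V] {f : (V → ZMod 2) → ℝ}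
    (h : ∀ u, 0 ≤ f u ∧ f u ≤ 1) : 0 ≤ avg f ∧ avg f ≤ 1 := by
  unfold avg
  constructor
  · exact div_nonneg (sum_nonneg fun u _ => (h u).1) (by positivity)
  · rw [div_le_one (by positivity)]
    calc ∑ u, f u ≤ ∑ u : V → ZMod 2, (1 : ℝ) := sum_le_sum fun u _ => (h u).2
      _ = 2 ^ Fintype.card V := by
        rw [sum_const, card_univ, Fintype.card_fun, ZMod.card]
        simp

theorem ck_equiv {V V' : Type} [Fintype V] [Fintype V'] [DecidableEq V] [DecidableEq V']
    (e : V ≃ V') (M : Matrix V' V' (ZMod 2)) : ck (M.submatrix e e) = ck M := by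
  unfold ck
  have h1 := LinearMap.finrank_range_add_finrank_ker (M.submatrix e e).mulVecLin
  have h2 := LinearMap.finrank_range_add_finrank_ker M.mulVecLin
  have h3 : Module.finrank (ZMod 2) (LinearMap.range (M.submatrix e e).mulVecLin) =
      Module.finrank (ZMod 2) (LinearMap.range M.mulVecLin) := Matrix.rank_submatrix M e e
  rw [Module.finrank_fintype_fun_eq_card] at h1 h2
  have h4 := Fintype.card_congr e
  omega

theorem ext_submatrix {V V' : Type} (e : V ≃ V') (M : Matrix V' V' (ZMod 2)) (φ ψ : V' → ZMod 2)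
    (w : ZMod 2) : (ext M φ ψ w).submatrix (Equiv.optionCongr e) (Equiv.optionCongr e) =
      ext (M.submatrix e e) (φ ∘ e) (ψ ∘ e) w := by
  ext a b
  cases a <;> cases b <;> rfl

theorem extv_comp {V V' : Type} (e : V ≃ V') (μ : V' → ZMod 2) (x : ZMod 2) :
    extv μ x ∘ (Equiv.optionCongr e) = extv (μ ∘ e) x := by
  funext a
  cases a <;> rfl

theorem prob_equiv : ∀ (ε : List (ZMod 2)) (V V' : Type) [Fintype V] [Fintype V']
    [DecidableEq V] [DecidableEq V'] (e : V ≃ V') (M : Matrix V' V' (ZMod 2)) (μ : V' → ZMod 2),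
    prob ε V (M.submatrix e e) (μ ∘ e) = prob ε V' M μ
  | [], V, V', _, _, _, _, e, M, μ => by
    unfold prob
    rw [ck_equiv]
  | x :: ε, V, V', _, _, _, _, e, M, μ => by
    unfold prob
    rw [Fintype.card_congr e]
    congr 1
    refine Fintype.sum_equiv (Equiv.arrowCongr e (Equiv.refl _)) _ _ fun φ => ?_
    refine sum_congr rfl fun w _ => ?_
    rw [← prob_equiv ε (Option V) (Option V') (Equiv.optionCongr e), ext_submatrix, extv_comp]
    congr 2
    · funext a
      simp [Equiv.arrowCongr]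
    · funext a
      simp [Equiv.arrowCongr]

/-- the new prime is `none` -/
noncomputable def eqv {n p : ℕ} (hn : n ≠ 0) (hp : p.Prime) (hpn : ¬ p ∣ n) :
    Option (PF n) ≃ PF (n * p) where
  toFun a := match a with
    | some q => ⟨q, Nat.primeFactors_mono (Dvd.intro _ rfl) (mul_ne_zero hn hp.ne_zero) q.2⟩
    | none => ⟨p, Nat.mem_primeFactors.mpr ⟨hp, Dvd.intro_left _ rfl, mul_ne_zero hn hp.ne_zero⟩⟩
  invFun q := if h : (q : ℕ) ∈ n.primeFactors then some ⟨q, h⟩ else none
  left_inv a := by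
    cases a with
    | some q => simp
    | none =>
      have : p ∉ n.primeFactors := fun h => hpn (Nat.dvd_of_mem_primeFactors h)
      simp only
      rw [dif_neg this]
  right_inv q := by
    obtain ⟨q, hq⟩ := q
    by_cases h : q ∈ n.primeFactors
    · simp [h]
    · simp only [h, dif_neg, not_false_iff]
      apply Subtype.ext
      have h1 : q ∈ n.primeFactors ∪ p.primeFactors := by
        rwa [← Nat.primeFactors_mul hn hp.ne_zero]
      rw [mem_union, hp.primeFactors, mem_singleton] at h1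
      exact (h1.resolve_left h).symm

theorem eqv_some {n p : ℕ} (hn : n ≠ 0) (hp : p.Prime) (hpn : ¬ p ∣ n) (q : PF n) :
    ((eqv hn hp hpn (some q) : PF (n * p)) : ℕ) = q := rfl

theorem eqv_none {n p : ℕ} (hn : n ≠ 0) (hp : p.Prime) (hpn : ¬ p ∣ n) :
    ((eqv hn hp hpn none : PF (n * p)) : ℕ) = p := rfl

theorem mat_ext {n p : ℕ} (hodd : Odd n) (hn : n ≠ 0) (hp : p.Prime) (hp2 : p ≠ 2)
    (hpn : ¬ p ∣ n) (u : PF (n * p) → ZMod 2) :
    (AA (n * p) + Matrix.diagonal u).submatrix (eqv hn hp hpn) (eqv hn hp hpn) =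
      ext (AA n + Matrix.diagonal (fun q => u (eqv hn hp hpn (some q)))) (sym n p)
        (sym n p + eps p • mu n) (u (eqv hn hp hpn none)) := by
  ext a b
  rw [Matrix.submatrix_apply, Matrix.add_apply]
  have hq : ∀ q : PF n, (q : ℕ).Prime := fun q => Nat.prime_of_mem_primeFactors q.2
  have hqp : ∀ q : PF n, (q : ℕ) ≠ p := fun q h => hpn (h ▸ Nat.dvd_of_mem_primeFactors q.2)
  cases a with
  | none =>
    cases b with
    | none =>
      rw [AA_diag, Matrix.diagonal_apply_eq, zero_add]
      rfl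
    | some q' =>
      have h1 : eqv hn hp hpn (some q') ≠ eqv hn hp hpn none := fun h => by
        have := (eqv hn hp hpn).injective h
        cases this
      rw [AA_off h1, Matrix.diagonal_apply_ne _ h1.symm, add_zero, eqv_some, eqv_none]
      show _ = sym n p q' + eps p * mu n q'
      have h2 := bit_rec (hq q') hp (pf_ne_two hodd q') hp2 (hqp q')
      have h3 : sym n p q' = bit (p : ℤ) (q' : ℕ) := rfl
      rw [h3]
      unfold eps mu
      rw [mul_comm, ← h2, add_comm (bit (((q' : ℕ) : ℤ)) p), ← add_assoc,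
        CharTwo.add_self_eq_zero, zero_add]
  | some q =>
    cases b with
    | none =>
      have h1 : eqv hn hp hpn none ≠ eqv hn hp hpn (some q) := fun h => by
        have := (eqv hn hp hpn).injective h
        cases this
      rw [AA_off h1, Matrix.diagonal_apply_ne _ h1.symm, add_zero, eqv_some, eqv_none]
      rfl
    | some q' =>
      show _ = (AA n + Matrix.diagonal (fun q => u (eqv hn hp hpn (some q)))) q q'
      rw [Matrix.add_apply]
      by_cases h : q' = q
      · subst h
        rw [AA_diag, AA_diag, Matrix.diagonal_apply_eq, Matrix.diagonal_apply_eq]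
      · have h1 : eqv hn hp hpn (some q') ≠ eqv hn hp hpn (some q) := fun h' => by
          have := (eqv hn hp hpn).injective h'
          exact h (Option.some.inj this)
        rw [AA_off h1, AA_off h, Matrix.diagonal_apply_ne _ h1.symm,
          Matrix.diagonal_apply_ne _ (fun h' => h h'.symm), eqv_some, eqv_some]

theorem mu_ext {n p : ℕ} (hn : n ≠ 0) (hp : p.Prime) (hpn : ¬ p ∣ n) :
    mu (n * p) ∘ (eqv hn hp hpn) = extv (mu n) (eps p) := by
  funext a
  cases a <;> rfl

theorem card_PF (n : ℕ) : Fintype.card (PF n) = n.primeFactors.card := Fintype.card_coe _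

/-- functions on `Option V` -/
theorem sum_option {V : Type} [Fintype V] [DecidableEq V] (f : (V → ZMod 2) → ZMod 2 → ℝ) :
    ∑ u : Option V → ZMod 2, f (fun q => u (some q)) (u none) =
      ∑ u : V → ZMod 2, ∑ w : ZMod 2, f u w := by
  rw [← Fintype.sum_prod_type']
  refine Fintype.sum_equiv ((Equiv.piOptionEquivProd (β := fun _ : Option V => ZMod 2)).trans
    (Equiv.prodComm _ _)) _ _ fun u => ?_
  rfl

noncomputable def GG (ε : List (ZMod 2)) (e n : ℕ) (φ : Pat n) : ℝ :=
  avg (fun u : PF n → ZMod 2 => (∑ w : ZMod 2, prob ε (Option (PF n))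
    (ext (AA n + Matrix.diagonal u) φ (φ + eps e • mu n) w) (extv (mu n) (eps e))) / 2)

theorem FF_mul {n p : ℕ} (hodd : Odd n) (hn : n ≠ 0) (hp : p.Prime) (hp2 : p ≠ 2)
    (hpn : ¬ p ∣ n) (ε : List (ZMod 2)) {e : ℕ} (he : eps p = eps e) :
    FF ε (n * p) = GG ε e n (sym n p) := by
  unfold FF GG avg
  have h1 : ∀ u : PF (n * p) → ZMod 2,
      prob ε (PF (n * p)) (AA (n * p) + Matrix.diagonal u) (mu (n * p)) =
      (fun (v : PF n → ZMod 2) (w : ZMod 2) => prob ε (Option (PF n))
        (ext (AA n + Matrix.diagonal v) (sym n p) (sym n p + eps e • mu n) w)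
        (extv (mu n) (eps e))) (fun q => u (eqv hn hp hpn (some q))) (u (eqv hn hp hpn none)) := by
    intro u
    rw [← prob_equiv ε _ _ (eqv hn hp hpn), mat_ext hodd hn hp hp2 hpn, mu_ext, he]
  rw [sum_congr rfl fun u _ => h1 u]
  have h2 : Fintype.card (PF (n * p)) = Fintype.card (PF n) + 1 := by
    rw [← Fintype.card_congr (eqv hn hp hpn), Fintype.card_option]
  rw [h2]
  have h3 := Fintype.sum_equiv (Equiv.arrowCongr (eqv hn hp hpn).symm (Equiv.refl (ZMod 2)))
    (fun u : PF (n * p) → ZMod 2 => (fun (v : PF n → ZMod 2) (w : ZMod 2) => prob ε (Option (PF n))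
        (ext (AA n + Matrix.diagonal v) (sym n p) (sym n p + eps e • mu n) w)
        (extv (mu n) (eps e))) (fun q => u (eqv hn hp hpn (some q))) (u (eqv hn hp hpn none)))
    (fun u : Option (PF n) → ZMod 2 => (fun (v : PF n → ZMod 2) (w : ZMod 2) =>
      prob ε (Option (PF n))
        (ext (AA n + Matrix.diagonal v) (sym n p) (sym n p + eps e • mu n) w)
        (extv (mu n) (eps e))) (fun q => u (some q)) (u none)) (fun u => rfl)
  rw [h3, sum_option (V := PF n) (fun (v : PF n → ZMod 2) (w : ZMod 2) => prob ε (Option (PF n))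
        (ext (AA n + Matrix.diagonal v) (sym n p) (sym n p + eps e • mu n) w)
        (extv (mu n) (eps e))), pow_succ, ← sum_div]
  field_simp

theorem GG_nonneg (ε : List (ZMod 2)) (e n : ℕ) (φ : Pat n) : 0 ≤ GG ε e n φ := by
  unfold GG avg
  exact div_nonneg (sum_nonneg fun u _ => div_nonneg (sum_nonneg fun w _ => (prob_mem _ _ _ _).1)
    (by norm_num)) (by positivity)

theorem GG_sum (ε : List (ZMod 2)) (e n : ℕ) :
    ∑ φ, GG ε e n φ = 2 ^ n.primeFactors.card * FF (eps e :: ε) n := by
  unfold GG FF avg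
  rw [← sum_div, sum_comm]
  have h1 : ∀ u : PF n → ZMod 2, ∑ φ : Pat n, (∑ w : ZMod 2, prob ε (Option (PF n))
      (ext (AA n + Matrix.diagonal u) φ (φ + eps e • mu n) w) (extv (mu n) (eps e))) / 2 =
      2 ^ n.primeFactors.card * prob (eps e :: ε) (PF n) (AA n + Matrix.diagonal u) (mu n) := by
    intro u
    rw [prob, ← sum_div, card_PF, pow_succ]
    field_simp
  rw [sum_congr rfl fun u _ => h1 u, ← mul_sum, mul_div_assoc]

theorem stmtDict : StmtDict := by
  refine ⟨fun n _ hodd => rec_AA n hodd, sum_cork, fun ε n => avg_mem fun u => prob_mem _ _ _ _,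
    fun n hn hodd ε e he => ⟨GG ε e n, GG_nonneg ε e n, fun p hp hpn hpe => ?_, GG_sum ε e n⟩⟩
  refine FF_mul hodd hn.ne_zero hp ?_ hpn ε ?_
  · rintro rfl
    omega
  · unfold eps
    rcases he with rfl | rfl
    · rw [hpe]
    · rw [hpe]

end Vale.Agent.P017.R3.H224
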