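import Vale.Agent.P017.R3.Defs
import Vale.Agent.P017.R2.H816.Red

/-!
# P017, module B5': the Rédei condition from the matrix, without conditions at 3 and 5
-/

open Finset

namespace Vale.Agent.P017.R3.H224

open Vale.Agent.P017.H185 (Redei local_symm)
open Vale.Agent.P017.R2.H985
open Vale.Agent.P017.R2.H816

/-- `StmtRed` for odd `m` -/
theorem red_odd (m : ℕ) (hm : Squarefree m) (hodd : Odd m) (s : ℕ) (p : Fin s → ℕ) (p' : ℕ)
    (hp : ∀ i, (p i).Prime ∧ p i % 4 = 1 ∧ ¬ p i ∣ m) (hinj : Function.Injective p)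
    (hp' : p'.Prime) (hp'2 : p' ≠ 2) (hp'm : ¬ p' ∣ m) (hne : ∀ i, p i ≠ p')
    (hG : Good m ((∑ i, sym m (p i)) + sym m p') (fun i => sym m (p i))) :
    Redei (m * (∏ i, p i) * p') := by
  classical
  obtain ⟨hcork, hR, hL⟩ := hG
  have hm0 : m ≠ 0 := hm.ne_zero
  have hpp : ∀ i, (p i).Prime ∧ ¬ p i ∣ m := fun i => ⟨(hp i).1, (hp i).2.2⟩
  set D := m * (∏ i, p i) * p' with hDdef
  have hmodd : ∀ q : PF m, (q : ℕ) ≠ 2 := by
    intro q hq
    have h2 : 2 ∣ m := hq ▸ Nat.dvd_of_mem_primeFactors q.2
    exact (Nat.not_even_iff_odd.mpr hodd) (even_iff_two_dvd.mpr h2)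
  have hqp : ∀ q : PF m, (q : ℕ).Prime := fun q => Nat.prime_of_mem_primeFactors q.2
  have hqm : ∀ q : PF m, (q : ℕ) ∣ m := fun q => Nat.dvd_of_mem_primeFactors q.2
  have hcop : m.Coprime (∏ i, p i) :=
    Nat.Coprime.prod_right fun i _ => ((Nat.Prime.coprime_iff_not_dvd (hp i).1).mpr (hp i).2.2).symm
  have hcop' : (m * ∏ i, p i).Coprime p' := by
    apply Nat.Coprime.mul_left
    · exact ((Nat.Prime.coprime_iff_not_dvd hp').mpr hp'm).symm
    · exact Nat.Coprime.prod_left fun i _ => (Nat.coprime_primes (hp i).1 hp').mpr (hne i)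
  have hD : Squarefree D := by
    rw [hDdef, Nat.squarefree_mul hcop', Nat.squarefree_mul hcop]
    refine ⟨⟨hm, ?_⟩, hp'.squarefree⟩
    refine Finset.squarefree_prod_of_pairwise_isCoprime ?_ fun i _ => (hp i).1.squarefree
    intro i _ j _ hij
    exact Nat.coprime_iff_isRelPrime.mp
      ((Nat.coprime_primes (hp i).1 (hp j).1).mpr fun h => hij (hinj h))
  have hprod : ∀ f : ℕ → ℤ, ∏ q ∈ D.primeFactors, f q =
      (∏ q : PF m, f q) * (∏ i, f (p i)) * f p' :=
    fun f => prod_primeFactors hm0 p p' hpp hinj hp' hp'm hne f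
  have key : ∀ a : ℕ, a ∣ D → ¬ p' ∣ a →
      (∀ r : ℕ, r.Prime → r ∣ D →
        (¬ r ∣ a → IsSquare (a : ZMod r)) ∧ (r ∣ a → IsSquare ((D / a : ℕ) : ZMod r))) →
      a = 1 := by
    intro a ha hpa hloc
    have ha1 : (a : ℤ) = (∏ q : PF m, (if (q : ℕ) ∣ a then ((q : ℕ) : ℤ) else 1)) *
        (∏ i, (if p i ∣ a then ((p i : ℕ) : ℤ) else 1)) := by
      have h1 := prod_if_dvd hD ha
      have h2 := hprod fun q => if q ∣ a then (q : ℤ) else 1
      have h3 : (∏ q ∈ D.primeFactors, if q ∣ a then (q : ℤ) else 1) = (a : ℤ) := by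
        conv_rhs => rw [← h1]
        push_cast
        rfl
      rw [← h3, h2, if_neg hpa, mul_one]
    have ha2 : ((D / a : ℕ) : ℤ) = (∏ q : PF m, (if (q : ℕ) ∣ a then 1 else ((q : ℕ) : ℤ))) *
        (∏ i, (if p i ∣ a then 1 else ((p i : ℕ) : ℤ))) * p' := by
      have h1 := prod_if_not_dvd hD ha
      have h2 := hprod fun q => if q ∣ a then 1 else (q : ℤ)
      have h3 : (∏ q ∈ D.primeFactors, if q ∣ a then 1 else (q : ℤ)) = ((D / a : ℕ) : ℤ) := by
        rw [← h1]
        push_cast
        rfl
      rw [← h3, h2, if_neg hpa]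
    set M := Mat m ((∑ i, sym m (p i)) + sym m p') with hMdef
    let x : Pat m := fun q => if (q : ℕ) ∣ a then 1 else 0
    let y : Fin s → ZMod 2 := fun i => if p i ∣ a then 1 else 0
    have hMx : M.mulVec x = ∑ i, y i • sym m (p i) := by
      funext q
      rw [hMdef, mulVec_Mat, Finset.sum_apply]
      simp only [Pi.smul_apply, smul_eq_mul, Pi.add_apply, Finset.sum_apply]
      have hqD : (q : ℕ) ∣ D := ((hqm q).mul_right _).mul_right _
      have hpiq : ∀ i, jacobiSym (p i : ℤ) q ≠ 0 := fun i =>
        jac_ne (hp i).1 (hqp q) (fun h => (hp i).2.2 (h ▸ hqm q))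
      have hp'q : jacobiSym (p' : ℤ) q ≠ 0 :=
        jac_ne hp' (hqp q) (fun h => hp'm (h ▸ hqm q))
      by_cases hqa : (q : ℕ) ∣ a
      · have hx : x q = 1 := if_pos hqa
        have h0 := bit_of_isSquare (a := ((D / a : ℕ) : ℤ)) (q := q)
          (by exact_mod_cast (hloc q (hqp q) hqD).2 hqa)
        have e1 : ∀ r ∈ (univ : Finset (PF m)),
            jacobiSym (if (r : ℕ) ∣ a then 1 else ((r : ℕ) : ℤ)) q ≠ 0 := by
          intro r _
          split_ifs with h
          · exact jac_one_ne _
          · exact jac_ne (hqp r) (hqp q) (fun h' => h (h' ▸ hqa))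
        have e2 : ∀ i ∈ (univ : Finset (Fin s)),
            jacobiSym (if p i ∣ a then 1 else ((p i : ℕ) : ℤ)) q ≠ 0 := by
          intro i _
          split_ifs with h
          · exact jac_one_ne _
          · exact hpiq i
        rw [ha2, bit_mul _ hp'q, bit_mul (jacobi_prod_ne _ _ e1) (jacobi_prod_ne _ _ e2),
          bit_prod _ _ e1, bit_prod _ _ e2] at h0
        · have g1 : ∀ r : PF m, bit (if (r : ℕ) ∣ a then 1 else ((r : ℕ) : ℤ)) q =
              bit ((r : ℕ) : ℤ) q + x r * bit ((r : ℕ) : ℤ) q := by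
            intro r
            by_cases h : (r : ℕ) ∣ a
            · rw [if_pos h, bit_one]
              simp only [x, if_pos h, one_mul]
              exact (CharTwo.add_self_eq_zero _).symm
            · rw [if_neg h]
              simp only [x, if_neg h, zero_mul, add_zero]
          have g2 : ∀ i, bit (if p i ∣ a then 1 else ((p i : ℕ) : ℤ)) q =
              sym m (p i) q + y i * sym m (p i) q := by
            intro i
            by_cases h : p i ∣ a
            · rw [if_pos h, bit_one]
              simp only [y, if_pos h, one_mul]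
              exact (CharTwo.add_self_eq_zero _).symm
            · rw [if_neg h]
              simp only [y, if_neg h, zero_mul, add_zero]
              rfl
          rw [sum_congr rfl fun r _ => g1 r, sum_congr rfl fun i _ => g2 i, sum_add_distrib,
            sum_add_distrib] at h0
          have g3 : bit (p' : ℤ) q = sym m p' q := rfl
          rw [g3] at h0
          rw [hx, one_mul, ← sub_eq_zero, CharTwo.sub_eq_add]
          linear_combination h0
        · rw [jacobiSym.mul_left]
          exact mul_ne_zero (jacobi_prod_ne _ _ e1) (jacobi_prod_ne _ _ e2)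
      · have hx : x q = 0 := if_neg hqa
        have h0 := bit_of_isSquare (a := (a : ℤ)) (q := q)
          (by exact_mod_cast (hloc q (hqp q) hqD).1 hqa)
        have e1 : ∀ r ∈ (univ : Finset (PF m)),
            jacobiSym (if (r : ℕ) ∣ a then ((r : ℕ) : ℤ) else 1) q ≠ 0 := by
          intro r _
          split_ifs with h
          · exact jac_ne (hqp r) (hqp q) (fun h' => hqa (h' ▸ h))
          · exact jac_one_ne _
        have e2 : ∀ i ∈ (univ : Finset (Fin s)),
            jacobiSym (if p i ∣ a then ((p i : ℕ) : ℤ) else 1) q ≠ 0 := by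
          intro i _
          split_ifs with h
          · exact hpiq i
          · exact jac_one_ne _
        rw [ha1, bit_mul (jacobi_prod_ne _ _ e1) (jacobi_prod_ne _ _ e2),
          bit_prod _ _ e1, bit_prod _ _ e2] at h0
        have g1 : ∀ r : PF m, bit (if (r : ℕ) ∣ a then ((r : ℕ) : ℤ) else 1) q =
            x r * bit ((r : ℕ) : ℤ) q := by
          intro r
          by_cases h : (r : ℕ) ∣ a
          · rw [if_pos h]
            simp only [x, if_pos h, one_mul]
          · rw [if_neg h, bit_one]
            simp only [x, if_neg h, zero_mul]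
        have g2 : ∀ i, bit (if p i ∣ a then ((p i : ℕ) : ℤ) else 1) q =
            y i * sym m (p i) q := by
          intro i
          by_cases h : p i ∣ a
          · rw [if_pos h]
            simp only [y, if_pos h, one_mul]
            rfl
          · rw [if_neg h, bit_one]
            simp only [y, if_neg h, zero_mul]
        rw [sum_congr rfl fun r _ => g1 r, sum_congr rfl fun i _ => g2 i] at h0
        rw [hx, zero_mul, add_zero, ← sub_eq_zero, CharTwo.sub_eq_add]
        exact h0
    have hy : y = 0 := y_zero M hcork _ hL x y hMx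
    have hpia : ∀ i, ¬ p i ∣ a := by
      intro i h
      have h1 : y i = 1 := if_pos h
      rw [hy] at h1
      exact absurd h1 zero_ne_one
    have ha3 : (a : ℤ) = ∏ q : PF m, (if (q : ℕ) ∣ a then ((q : ℕ) : ℤ) else 1) := by
      rw [ha1, prod_eq_one (s := (univ : Finset (Fin s))) fun i _ => if_neg (hpia i), mul_one]
    have hx : x = 0 := by
      apply hR x
      · rw [hMx, hy]
        simp
      · intro i
        have hpD : p i ∣ D := ((dvd_prod_of_mem p (mem_univ i)).mul_left _).mul_right _
        have h0 := bit_of_isSquare (a := (a : ℤ)) (q := p i)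
          (by exact_mod_cast (hloc (p i) (hp i).1 hpD).1 (hpia i))
        have e1 : ∀ r ∈ (univ : Finset (PF m)),
            jacobiSym (if (r : ℕ) ∣ a then ((r : ℕ) : ℤ) else 1) (p i) ≠ 0 := by
          intro r _
          split_ifs with h
          · exact jac_ne (hqp r) (hp i).1 (fun h' => (hp i).2.2 (h' ▸ hqm r))
          · exact jac_one_ne _
        rw [ha3, bit_prod _ _ e1] at h0
        rw [← h0, dotProduct]
        apply sum_congr rfl
        intro r _
        by_cases h : (r : ℕ) ∣ a
        · rw [if_pos h]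
          simp only [x, if_pos h, mul_one]
          have hrodd : Odd (r : ℕ) := (hqp r).odd_of_ne_two (hmodd r)
          unfold sym bit
          rw [jacobiSym.quadratic_reciprocity_one_mod_four' hrodd (hp i).2.1]
        · rw [if_neg h, bit_one]
          simp only [x, if_neg h, mul_zero]
    have h4 : (a : ℤ) = 1 := by
      rw [ha3]
      apply prod_eq_one
      intro r _
      rw [if_neg]
      intro h
      have h1 : x r = 1 := if_pos h
      rw [hx] at h1
      exact absurd h1 zero_ne_one
    exact_mod_cast h4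
  intro a ha hloc
  by_cases hpa : p' ∣ a
  · right
    obtain ⟨c, hc⟩ := ha
    have hD0 := hD.ne_zero
    have ha0 : a ≠ 0 := by rintro rfl; exact hD0 (by rw [hc, zero_mul])
    have h1 : D / a = c := by
      rw [hc]; exact Nat.mul_div_cancel_left c (Nat.pos_of_ne_zero ha0)
    have h2 := key (D / a) (Nat.div_dvd_of_dvd ⟨c, hc⟩) (by
      rw [h1]
      intro hpc
      have : p' * p' ∣ D := by rw [hc]; exact Nat.mul_dvd_mul hpa hpc
      exact hp'.one_lt.ne' (Nat.isUnit_iff.mp (hD p' this))) (local_symm hD ⟨c, hc⟩ hloc)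
    rw [h1] at h2
    rw [hc, h2, mul_one]
  · left; exact key a ha hpa hloc


theorem eq_zero_of_ker {n : Type*} [Fintype n] [DecidableEq n] {K : Type*} [Field K]
    {f : (n → K) →ₗ[K] (n → K)} (h : Module.finrank K (LinearMap.ker f) = 0) {x : n → K}
    (hx : f x = 0) : x = 0 := by
  have h1 : LinearMap.ker f = ⊥ := Submodule.finrank_eq_zero.mp h
  have h2 : x ∈ LinearMap.ker f := hx
  rw [h1] at h2
  exact (Submodule.mem_bot K).mp h2

theorem stmtRed2 : StmtRed2 := by
  classical
  intro n hn hodd p hp hp2 hpn hc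
  have h := red_odd n hn hodd 0 (fun i => i.elim0) p (fun i => i.elim0) (fun i => i.elim0) hp hp2
    hpn (fun i => i.elim0) ?_
  · simpa using h
  · have e : (∑ i : Fin 0, sym n ((fun i => i.elim0 : Fin 0 → ℕ) i)) + sym n p = sym n p := by
      rw [univ_eq_empty, sum_empty, zero_add]
    rw [e]
    have h0 : Module.finrank (ZMod 2) (LinearMap.ker (Mat n (sym n p)).vecMulLinear) = 0 := by
      rw [finrank_left]
      exact hc
    refine ⟨hc, fun x hx _ => eq_zero_of_ker (f := (Mat n (sym n p)).mulVecLin) hc (by simpa using hx),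
      fun r hr _ => eq_zero_of_ker (f := (Mat n (sym n p)).vecMulLinear) h0 (by simpa using hr)⟩

end Vale.Agent.P017.R3.H224
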