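import Vale.Agent.P017.R3.Sys
import Vale.Agent.P017.R3.H285.Cell
import Vale.Agent.P017.R3.H224.Dict
import Vale.Agent.P017.R3.H224.Red2

/-!
# P017 density project, module B12: system 1
-/

open Finset

namespace Vale.Agent.P017.R3.H224

open Vale.Agent.P017.R2.H985 (bit PF Pat sym Mat cork)
open Vale.Agent.P017.R3.H285 (L15 res sum_res sum_ok card_L15 okc_iff free_mul res_sym)

theorem sum_cork_zero (n : ℕ) : ∑ w : Pat n, (if cork n w = 0 then (1 : ℝ) else 0) =
    2 ^ n.primeFactors.card * FF [] n := by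
  rw [sum_cork n (fun k => if k = 0 then (1 : ℝ) else 0)]
  unfold FF avg
  simp only [prob, Fintype.card_coe]
  field_simp

theorem s1_hyp : S1.Hyp := by
  classical
  refine ⟨stmtDict.2.2.1, fun n p hp h5 => free_mul hp h5, ?_, ?_⟩
  · intro n hn ho ε e he
    obtain ⟨G, hG0, hG1, hG2⟩ := stmtDict.2.2.2 n hn ho ε e he
    refine ⟨fun φ => G (res hn.ne_zero φ), fun φ => hG0 _,
      fun p hp _ hpn hpe => hG1 p hp hpn hpe, ?_⟩
    rw [sum_res, hG2]
    have h := card_L15 hn.ne_zero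
    show _ = (Fintype.card (Pat (L15 n)) : ℝ) * FF (eps e :: ε) n
    rw [h]
    ring
  · intro n hn ho e he
    have hn0 := hn.ne_zero
    refine ⟨univ.filter (fun φ : Pat (L15 n) =>
        (∀ q : PF (L15 n), ¬ (q : ℕ) ∣ n → φ q = 1 + bit (n : ℤ) (q : ℕ)) ∧
          cork n (res hn0 φ) = 0),
      univ.filter (fun φ : Pat (L15 n) =>
        ∀ q : PF (L15 n), ¬ (q : ℕ) ∣ n → φ q = 1 + bit (n : ℤ) (q : ℕ)), ?_, ?_, ?_, ?_⟩
    · intro p hp h5 hpn hpe hA
      rw [mem_filter] at hA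
      exact ⟨(okc_iff hn0 hp h5).2 hA.2.1, stmtRed2 n hn ho p hp (by omega) hpn hA.2.2⟩
    · intro p hp h5 hpn hpe hok
      rw [mem_filter]
      exact ⟨mem_univ _, (okc_iff hn0 hp h5).1 hok⟩
    · have h1 : ((univ.filter (fun φ : Pat (L15 n) =>
          (∀ q : PF (L15 n), ¬ (q : ℕ) ∣ n → φ q = 1 + bit (n : ℤ) (q : ℕ)) ∧
          cork n (res hn0 φ) = 0)).card : ℝ) = 2 ^ n.primeFactors.card * FF [] n := by
        rw [← sum_cork_zero, ← sum_ok hn0 (fun w => if cork n w = 0 then (1 : ℝ) else 0),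
          card_filter]
        push_cast
        refine sum_congr rfl fun φ _ => ?_
        rw [ite_and]
      rw [h1]
      show FF [] n * ((Fintype.card (Pat (L15 n)) : ℝ) / 2 ^ free n) ≤ _
      rw [card_L15 hn0]
      have h7 : (0 : ℝ) < 2 ^ free n := by positivity
      apply le_of_eq
      field_simp
    · have h1 : ((univ.filter (fun φ : Pat (L15 n) =>
          ∀ q : PF (L15 n), ¬ (q : ℕ) ∣ n → φ q = 1 + bit (n : ℤ) (q : ℕ))).card : ℝ) =
          2 ^ n.primeFactors.card := by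
        have h2 := sum_ok hn0 (fun _ => (1 : ℝ))
        rw [card_filter]
        push_cast
        rw [h2, sum_const, card_univ, Fintype.card_fun, ZMod.card, Fintype.card_coe, nsmul_eq_mul]
        push_cast
        ring
      rw [h1]
      show _ ≤ (Fintype.card (Pat (L15 n)) : ℝ) / 2 ^ free n
      rw [card_L15 hn0]
      have h7 : (0 : ℝ) < 2 ^ free n := by positivity
      apply le_of_eq
      field_simp

theorem stmtS1 : StmtS1 := by
  refine ⟨s1_hyp, fun hRM η B hη => ?_⟩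
  obtain ⟨h, k, hk⟩ := hRM η B hη
  exact ⟨h, k, fun ε m d hm ho _ _ hc hB =>
    hk ε (PF m) (AA m) (mu m) (stmtDict.1 m hm ho) hc hB⟩

end Vale.Agent.P017.R3.H224
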