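import Vale.Agent.P017.R3.Gen
import Vale.Agent.P017.R3.H285.Cell
import Vale.Agent.P017.R3.H224.Dict

/-!
# P017 density project, module D2: system 2 (3 inert, 5 split)
-/

open Finset

namespace Vale.Agent.P017.R3.H224

open Vale.Agent.P017.R2.H985 (bit PF Pat sym Mat cork)
open Vale.Agent.P017.R3.H285 (L15 res split RR split_fst split_snd mem_L15 card_L15 bit3 bit5)

/-! ### The model -/

theorem prob2_mem : ∀ (ε : List (ZMod 2)) (V : Type) [Fintype V] [DecidableEq V]
    (M : Matrix V V (ZMod 2)) (μ st : V → ZMod 2), 0 ≤ prob2 ε V M μ st ∧ prob2 ε V M μ st ≤ 1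
  | [], V, _, _, M, μ, st => by
    unfold prob2
    split_ifs <;> norm_num
  | e :: ε, V, _, _, M, μ, st => by
    unfold prob2
    have h := fun (φ : V → ZMod 2) (w χ : ZMod 2) =>
      prob2_mem ε (Option V) (ext M φ (φ + (e • μ + χ • st)) w) (extv μ e) (extv st 0)
    constructor
    · exact div_nonneg (sum_nonneg fun φ _ => sum_nonneg fun w _ => sum_nonneg fun χ _ =>
        (h φ w χ).1) (by positivity)
    · rw [div_le_one (by positivity)]
      calc ∑ φ : V → ZMod 2, ∑ w : ZMod 2, ∑ χ : ZMod 2,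
            prob2 ε (Option V) (ext M φ (φ + (e • μ + χ • st)) w) (extv μ e) (extv st 0)
          ≤ ∑ φ : V → ZMod 2, ∑ w : ZMod 2, ∑ χ : ZMod 2, (1 : ℝ) :=
            sum_le_sum fun φ _ => sum_le_sum fun w _ => sum_le_sum fun χ _ => (h φ w χ).2
        _ = 2 ^ (Fintype.card V + 2) := by
            rw [sum_const, sum_const, sum_const, card_univ, card_univ, Fintype.card_fun, ZMod.card]
            simp only [nsmul_eq_mul, mul_one]
            push_cast
            ring

theorem prob2_equiv : ∀ (ε : List (ZMod 2)) (V V' : Type) [Fintype V] [Fintype V']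
    [DecidableEq V] [DecidableEq V'] (e : V ≃ V') (M : Matrix V' V' (ZMod 2))
    (μ st : V' → ZMod 2),
    prob2 ε V (M.submatrix e e) (μ ∘ e) (st ∘ e) = prob2 ε V' M μ st
  | [], V, V', _, _, _, _, e, M, μ, st => by
    unfold prob2
    rw [ck_equiv]
  | x :: ε, V, V', _, _, _, _, e, M, μ, st => by
    unfold prob2
    rw [Fintype.card_congr e]
    congr 1
    refine Fintype.sum_equiv (Equiv.arrowCongr e (Equiv.refl _)) _ _ fun φ => ?_
    refine sum_congr rfl fun w _ => sum_congr rfl fun χ _ => ?_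
    rw [← prob2_equiv ε (Option V) (Option V') (Equiv.optionCongr e), ext_submatrix, extv_comp,
      extv_comp]
    congr 2
    · funext a
      simp [Equiv.arrowCongr]
    · funext a
      simp [Equiv.arrowCongr]

theorem ck_ext_le {V : Type} [Fintype V] [DecidableEq V] (M : Matrix V V (ZMod 2))
    (φ ψ : V → ZMod 2) (w : ZMod 2) : ck (ext M φ ψ w) ≤ ck M + 1 := by
  unfold ck
  have h1 := LinearMap.finrank_range_add_finrank_ker (ext M φ ψ w).mulVecLin
  have h2 := LinearMap.finrank_range_add_finrank_ker M.mulVecLin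
  rw [Module.finrank_fintype_fun_eq_card] at h1 h2
  rw [Fintype.card_option] at h1
  have h3 : M.rank ≤ (ext M φ ψ w).rank := by
    have e : M = (1 : Matrix (Option V) (Option V) (ZMod 2)).submatrix some id *
        (ext M φ ψ w * (1 : Matrix (Option V) (Option V) (ZMod 2)).submatrix id some) := by
      ext a b
      rw [Matrix.mul_apply]
      simp [Matrix.mul_apply, Matrix.one_apply, ext]
    conv_lhs => rw [e]
    exact (Matrix.rank_mul_le_right _ _).trans (Matrix.rank_mul_le_left _ _)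
  have h4 : Module.finrank (ZMod 2) (LinearMap.range M.mulVecLin) ≤
      Module.finrank (ZMod 2) (LinearMap.range (ext M φ ψ w).mulVecLin) := h3
  omega

/-! ### The new prime -/

section new

variable {n p : ℕ} (hn : n ≠ 0) (hp : p.Prime) (hpn : ¬ p ∣ n)

noncomputable def eqv2 : Option (Option (PF n)) ≃ Option (PF (n * p)) where
  toFun a := match a with
    | none => some (eqv hn hp hpn none)
    | some none => none
    | some (some q) => some (eqv hn hp hpn (some q))
  invFun b := match b with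
    | none => some none
    | some r => match (eqv hn hp hpn).symm r with
      | none => none
      | some q => some (some q)
  left_inv a := by
    match a with
    | none => simp only [Equiv.symm_apply_apply]
    | some none => rfl
    | some (some q) => simp only [Equiv.symm_apply_apply]
  right_inv b := by
    match b with
    | none => rfl
    | some r =>
      obtain ⟨a, rfl⟩ := (eqv hn hp hpn).surjective r
      match a with
      | none => simp only [Equiv.symm_apply_apply]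
      | some q => simp only [Equiv.symm_apply_apply]

/-- the new column -/
def colv (φ : Pat n) (b : ZMod 2) : Option (PF n) → ZMod 2 := extv φ b

theorem mat_ext2 (hodd : Odd n) (hp2 : p ≠ 2) (u : PF (n * p) → ZMod 2) :
    (MM2 (n * p) u).submatrix (eqv2 hn hp hpn) (eqv2 hn hp hpn) =
      ext (MM2 n (fun q => u (eqv hn hp hpn (some q)))) (extv (sym n p) (bit (p : ℤ) 3))
        (extv (sym n p) (bit (p : ℤ) 3) + (eps p • extv (mu n) 0 +
          (bit (p : ℤ) 5 + bit (p : ℤ) 3) • extv 0 1)) (u (eqv hn hp hpn none)) := by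
  have h0 := mat_ext hodd hn hp hp2 hpn u
  have h1 : ∀ a b : Option (PF n), (AA (n * p) + Matrix.diagonal u) (eqv hn hp hpn a)
      (eqv hn hp hpn b) = ext (AA n + Matrix.diagonal (fun q => u (eqv hn hp hpn (some q))))
        (sym n p) (sym n p + eps p • mu n) (u (eqv hn hp hpn none)) a b := by
    intro a b
    rw [← h0]
    rfl
  ext a b
  match a, b with
  | none, none => exact h1 none none
  | none, some none =>
    show bit (p : ℤ) 5 = bit (p : ℤ) 3 + (eps p * 0 + (bit (p : ℤ) 5 + bit (p : ℤ) 3) * 1)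
    rw [mul_zero, zero_add, mul_one, add_comm (bit (p : ℤ) 5), ← add_assoc,
      CharTwo.add_self_eq_zero, zero_add]
  | none, some (some q) =>
    refine (h1 none (some q)).trans ?_
    show sym n p q + eps p * mu n q = sym n p q + (eps p * mu n q +
      (bit (p : ℤ) 5 + bit (p : ℤ) 3) * 0)
    rw [mul_zero, add_zero]
  | some none, none => rfl
  | some none, some none => rfl
  | some none, some (some q) => rfl
  | some (some q), none => exact h1 (some q) none
  | some (some q), some none => rfl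
  | some (some q), some (some q') => exact h1 (some q) (some q')

theorem mu_ext2 : extv (mu (n * p)) 0 ∘ (eqv2 hn hp hpn) = extv (extv (mu n) 0) (eps p) := by
  funext a
  match a with
  | none => rfl
  | some none => rfl
  | some (some q) => rfl

theorem st_ext2 : (extv 0 1 : Option (PF (n * p)) → ZMod 2) ∘ (eqv2 hn hp hpn) =
    extv (extv 0 1) 0 := by
  funext a
  match a with
  | none => rfl
  | some none => rfl
  | some (some q) => rfl

end new

noncomputable def G2 (ε : List (ZMod 2)) (e n : ℕ) (φ : Pat n) (b3 b5 : ZMod 2) : ℝ :=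
  avg (fun u : PF n → ZMod 2 => (∑ w : ZMod 2, prob2 ε (Option (Option (PF n)))
    (ext (MM2 n u) (extv φ b3) (extv φ b3 + (eps e • extv (mu n) 0 + (b5 + b3) • extv 0 1)) w)
    (extv (extv (mu n) 0) (eps e)) (extv (extv 0 1) 0)) / 2)

theorem G2_nonneg (ε : List (ZMod 2)) (e n : ℕ) (φ : Pat n) (b3 b5 : ZMod 2) :
    0 ≤ G2 ε e n φ b3 b5 := by
  unfold G2 avg
  exact div_nonneg (sum_nonneg fun u _ => div_nonneg (sum_nonneg fun w _ =>
    (prob2_mem _ _ _ _ _).1) (by norm_num)) (by positivity)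

theorem not_dvd_mul {n p q : ℕ} (hq : q.Prime) (hn : ¬ q ∣ n) (hp : p.Prime) (hqp : q ≠ p) :
    ¬ q ∣ n * p := by
  intro h
  rcases (Nat.Prime.dvd_mul hq).1 h with h | h
  · exact hn h
  · exact hqp ((Nat.prime_dvd_prime_iff_eq hq hp).1 h)

theorem sum_new {n p : ℕ} (hn : n ≠ 0) (hp : p.Prime) (hpn : ¬ p ∣ n)
    (F : (PF n → ZMod 2) → ZMod 2 → ℝ) :
    ∑ u : PF (n * p) → ZMod 2, F (fun q => u (eqv hn hp hpn (some q))) (u (eqv hn hp hpn none)) =
      ∑ v : PF n → ZMod 2, ∑ w : ZMod 2, F v w := by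
  have h4 := Fintype.sum_equiv (Equiv.arrowCongr (eqv hn hp hpn).symm (Equiv.refl (ZMod 2)))
    (fun u : PF (n * p) → ZMod 2 =>
      F (fun q => u (eqv hn hp hpn (some q))) (u (eqv hn hp hpn none)))
    (fun u : Option (PF n) → ZMod 2 => F (fun q => u (some q)) (u none)) (fun u => rfl)
  rw [h4, sum_option]

theorem FF2_mul {n p : ℕ} (hodd : Odd n) (hn : n ≠ 0) (hp : p.Prime) (hp5 : 5 < p)
    (hpn : ¬ p ∣ n) (h3 : ¬ 3 ∣ n) (h5 : ¬ 5 ∣ n) (ε : List (ZMod 2)) {e : ℕ}
    (he : eps p = eps e) :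
    FF2 ε (n * p) = G2 ε e n (sym n p) (bit (p : ℤ) 3) (bit (p : ℤ) 5) := by
  have h3' : ¬ 3 ∣ n * p := not_dvd_mul Nat.prime_three h3 hp (by omega)
  have h5' : ¬ 5 ∣ n * p := not_dvd_mul Nat.prime_five h5 hp (by omega)
  unfold FF2 G2 avg
  rw [if_neg (by tauto)]
  have h1 : ∀ u : PF (n * p) → ZMod 2,
      prob2 ε (Option (PF (n * p))) (MM2 (n * p) u) (extv (mu (n * p)) 0) (extv 0 1) =
      (fun (v : PF n → ZMod 2) (w : ZMod 2) => prob2 ε (Option (Option (PF n)))
        (ext (MM2 n v) (extv (sym n p) (bit (p : ℤ) 3)) (extv (sym n p) (bit (p : ℤ) 3) +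
          (eps e • extv (mu n) 0 + (bit (p : ℤ) 5 + bit (p : ℤ) 3) • extv 0 1)) w)
        (extv (extv (mu n) 0) (eps e)) (extv (extv 0 1) 0))
        (fun q => u (eqv hn hp hpn (some q))) (u (eqv hn hp hpn none)) := by
    intro u
    rw [← prob2_equiv ε _ _ (eqv2 hn hp hpn), mat_ext2 hn hp hpn hodd (by omega), mu_ext2,
      st_ext2, he]
  have h2 : Fintype.card (PF (n * p)) = Fintype.card (PF n) + 1 := by
    rw [← Fintype.card_congr (eqv hn hp hpn), Fintype.card_option]
  have h6 := sum_new hn hp hpn (fun (v : PF n → ZMod 2) (w : ZMod 2) =>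
    prob2 ε (Option (Option (PF n)))
        (ext (MM2 n v) (extv (sym n p) (bit (p : ℤ) 3)) (extv (sym n p) (bit (p : ℤ) 3) +
          (eps e • extv (mu n) 0 + (bit (p : ℤ) 5 + bit (p : ℤ) 3) • extv 0 1)) w)
        (extv (extv (mu n) 0) (eps e)) (extv (extv 0 1) 0))
  rw [sum_congr rfl fun u _ => h1 u, h2, h6, pow_succ, ← sum_div]
  field_simp

theorem sum4 {A B C D : Type*} [Fintype A] [Fintype B] [Fintype C] [Fintype D]
    (X : A → B → C → D → ℝ) :
    ∑ a, ∑ b, ∑ c, ∑ d, X a b c d = ∑ d, ∑ a, ∑ b, ∑ c, X a b c d := by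
  have h1 : ∀ a b, ∑ c, ∑ d, X a b c d = ∑ d, ∑ c, X a b c d := fun a b => sum_comm
  have h2 : ∀ a, ∑ b, ∑ d, ∑ c, X a b c d = ∑ d, ∑ b, ∑ c, X a b c d := fun a => sum_comm
  simp only [h1, h2]
  exact sum_comm

theorem G2_sum {n : ℕ} (h3 : ¬ 3 ∣ n) (h5 : ¬ 5 ∣ n) (ε : List (ZMod 2)) (e : ℕ) :
    ∑ φ : Pat n, ∑ b3 : ZMod 2, ∑ b5 : ZMod 2, G2 ε e n φ b3 b5 =
      2 ^ (n.primeFactors.card + 2) * FF2 (eps e :: ε) n := by
  unfold G2 FF2 avg
  rw [if_neg (by tauto)]
  have h1 : ∀ u : PF n → ZMod 2, ∑ φ : Pat n, ∑ b3 : ZMod 2, ∑ b5 : ZMod 2,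
      (∑ w : ZMod 2, prob2 ε (Option (Option (PF n)))
        (ext (MM2 n u) (extv φ b3) (extv φ b3 + (eps e • extv (mu n) 0 + (b5 + b3) • extv 0 1)) w)
        (extv (extv (mu n) 0) (eps e)) (extv (extv 0 1) 0)) / 2 =
      2 ^ (n.primeFactors.card + 2) *
        prob2 (eps e :: ε) (Option (PF n)) (MM2 n u) (extv (mu n) 0) (extv 0 1) := by
    intro u
    rw [prob2, Fintype.card_option, card_PF]
    have h2 : ∀ (φ : Pat n) (b3 : ZMod 2), ∑ b5 : ZMod 2,
        (∑ w : ZMod 2, prob2 ε (Option (Option (PF n)))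
          (ext (MM2 n u) (extv φ b3)
            (extv φ b3 + (eps e • extv (mu n) 0 + (b5 + b3) • extv 0 1)) w)
          (extv (extv (mu n) 0) (eps e)) (extv (extv 0 1) 0)) / 2 =
        ∑ χ : ZMod 2, (∑ w : ZMod 2, prob2 ε (Option (Option (PF n)))
          (ext (MM2 n u) (extv φ b3)
            (extv φ b3 + (eps e • extv (mu n) 0 + χ • extv 0 1)) w)
          (extv (extv (mu n) 0) (eps e)) (extv (extv 0 1) 0)) / 2 := fun φ b3 =>
      Fintype.sum_equiv (Equiv.addRight b3) _ _ fun b5 => rfl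
    rw [sum_congr rfl fun φ _ => sum_congr rfl fun b3 _ => h2 φ b3]
    have h3 := sum_option (V := PF n) (fun φ b3 => ∑ χ : ZMod 2,
      (∑ w : ZMod 2, prob2 ε (Option (Option (PF n)))
          (ext (MM2 n u) (extv φ b3)
            (extv φ b3 + (eps e • extv (mu n) 0 + χ • extv 0 1)) w)
          (extv (extv (mu n) 0) (eps e)) (extv (extv 0 1) 0)) / 2)
    have h4 : ∀ u' : Option (PF n) → ZMod 2, extv (fun q => u' (some q)) (u' none) = u' := by
      intro u'
      funext a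
      cases a <;> rfl
    simp only [h4] at h3
    refine h3.symm.trans ?_
    have h5 : ∀ φ : Option (PF n) → ZMod 2, ∑ χ : ZMod 2,
        (∑ w : ZMod 2, prob2 ε (Option (Option (PF n)))
          (ext (MM2 n u) φ (φ + (eps e • extv (mu n) 0 + χ • extv 0 1)) w)
          (extv (extv (mu n) 0) (eps e)) (extv (extv 0 1) 0)) / 2 =
        (∑ w : ZMod 2, ∑ χ : ZMod 2, prob2 ε (Option (Option (PF n)))
          (ext (MM2 n u) φ (φ + (eps e • extv (mu n) 0 + χ • extv 0 1)) w)
          (extv (extv (mu n) 0) (eps e)) (extv (extv 0 1) 0)) / 2 := by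
      intro φ
      rw [← sum_div, sum_comm]
    rw [sum_congr rfl fun φ _ => h5 φ, ← sum_div]
    rw [show n.primeFactors.card + 1 + 2 = n.primeFactors.card + 2 + 1 by ring, pow_succ _ (_ + 2)]
    field_simp
  have h6 : ∑ φ : Pat n, ∑ b3 : ZMod 2, ∑ b5 : ZMod 2, ∑ u : PF n → ZMod 2,
      (∑ w : ZMod 2, prob2 ε (Option (Option (PF n)))
        (ext (MM2 n u) (extv φ b3) (extv φ b3 + (eps e • extv (mu n) 0 + (b5 + b3) • extv 0 1)) w)
        (extv (extv (mu n) 0) (eps e)) (extv (extv 0 1) 0)) / 2 =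
      2 ^ (n.primeFactors.card + 2) * ∑ u : PF n → ZMod 2,
        prob2 (eps e :: ε) (Option (PF n)) (MM2 n u) (extv (mu n) 0) (extv 0 1) := by
    rw [sum4, sum_congr rfl fun u _ => h1 u, mul_sum]
  rw [← mul_div_assoc, ← h6]
  simp only [sum_div]

/-! ### Patterns modulo `lcm(n, 15)` -/

section pat

variable {n : ℕ} (hn : n ≠ 0) (h3 : ¬ 3 ∣ n) (h5 : ¬ 5 ∣ n)

def p3 : PF (L15 n) := ⟨3, (mem_L15 hn).2 (Or.inr (Or.inl rfl))⟩
def p5 : PF (L15 n) := ⟨5, (mem_L15 hn).2 (Or.inr (Or.inr rfl))⟩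

def eqRR : Bool ≃ RR n where
  toFun b := if b then ⟨p3 hn, h3⟩ else ⟨p5 hn, h5⟩
  invFun r := decide ((r.1 : ℕ) = 3)
  left_inv b := by cases b <;> rfl
  right_inv r := by
    obtain ⟨⟨q, hq⟩, hqn⟩ := r
    rcases (mem_L15 hn).1 hq with h | h | h
    · exact absurd (Nat.dvd_of_mem_primeFactors h) hqn
    · subst h; rfl
    · subst h; rfl

include h3 h5 in
theorem sum_split (F : Pat n → ZMod 2 → ZMod 2 → ℝ) :
    ∑ φ : Pat (L15 n), F (res hn φ) (φ (p3 hn)) (φ (p5 hn)) =
      ∑ w : Pat n, ∑ b3 : ZMod 2, ∑ b5 : ZMod 2, F w b3 b5 := by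
  rw [← Equiv.sum_comp (split hn).symm, Fintype.sum_prod_type]
  refine sum_congr rfl fun w _ => ?_
  have h1 : ∀ v : RR n → ZMod 2, res hn ((split hn).symm (w, v)) = w := by
    intro v
    rw [← split_fst, Equiv.apply_symm_apply]
  have h2 : ∀ (v : RR n → ZMod 2) (r : RR n), (split hn).symm (w, v) r.1 = v r := by
    intro v r
    have := split_snd hn ((split hn).symm (w, v)) r
    rw [Equiv.apply_symm_apply] at this
    exact this.symm
  have h3' : ∀ v : RR n → ZMod 2, (split hn).symm (w, v) (p3 hn) = v ⟨p3 hn, h3⟩ :=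
    fun v => h2 v ⟨p3 hn, h3⟩
  have h5' : ∀ v : RR n → ZMod 2, (split hn).symm (w, v) (p5 hn) = v ⟨p5 hn, h5⟩ :=
    fun v => h2 v ⟨p5 hn, h5⟩
  simp only [h1, h3', h5']
  rw [← Fintype.sum_prod_type']
  refine Fintype.sum_equiv ((Equiv.arrowCongr (eqRR hn h3 h5).symm (Equiv.refl (ZMod 2))).trans
    ((Equiv.boolArrowEquivProd (ZMod 2)).trans (Equiv.prodComm _ _))) _ _ fun v => ?_
  rfl

end pat

theorem card_L15' {n : ℕ} (hn : n ≠ 0) (h3 : ¬ 3 ∣ n) (h5 : ¬ 5 ∣ n) :
    (Fintype.card (Pat (L15 n)) : ℝ) = 2 ^ (n.primeFactors.card + 2) := by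
  rw [card_L15 hn]
  unfold free
  rw [if_neg h3, if_neg h5]
  ring

theorem ok2_iff {n p : ℕ} (h3 : ¬ 3 ∣ n) (h5 : ¬ 5 ∣ n) (hp : p.Prime) (hp5 : 5 < p) :
    OK2 (n * p) ↔ bit (p : ℤ) 3 = bit (n : ℤ) 3 ∧ bit (p : ℤ) 5 = bit (n : ℤ) 5 := by
  have h3p : ¬ 3 ∣ p := fun h => by
    have := (Nat.prime_dvd_prime_iff_eq Nat.prime_three hp).1 h; omega
  have h5p : ¬ 5 ∣ p := fun h => by
    have := (Nat.prime_dvd_prime_iff_eq Nat.prime_five hp).1 h; omega
  unfold OK2
  refine and_congr ?_ ?_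
  · rw [bit3 p h3p, bit3 n h3]
    have h1 : n % 3 = 1 ∨ n % 3 = 2 := by omega
    have h2 : p % 3 = 1 ∨ p % 3 = 2 := by omega
    rw [Nat.mul_mod]
    rcases h1 with h1 | h1 <;> rcases h2 with h2 | h2 <;> rw [h1, h2] <;> decide
  · rw [bit5 p h5p, bit5 n h5]
    have h1 : n % 5 = 1 ∨ n % 5 = 2 ∨ n % 5 = 3 ∨ n % 5 = 4 := by omega
    have h2 : p % 5 = 1 ∨ p % 5 = 2 ∨ p % 5 = 3 ∨ p % 5 = 4 := by omega
    rw [Nat.mul_mod]
    rcases h1 with h1 | h1 | h1 | h1 <;> rcases h2 with h2 | h2 | h2 | h2 <;>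
      rw [h1, h2] <;> decide

/-- the final matrix -/
def fin2 (n : ℕ) (w : Pat n) : Matrix (Option (PF n)) (Option (PF n)) (ZMod 2) :=
  ext (Mat n w) (fun q => bit ((q : ℕ) : ℤ) 5) (fun q => bit ((q : ℕ) : ℤ) 3) 1

theorem sum_fin2 {n : ℕ} (h3 : ¬ 3 ∣ n) (h5 : ¬ 5 ∣ n) :
    ∑ w : Pat n, (if ck (fin2 n w) = 0 then (1 : ℝ) else 0) =
      2 ^ n.primeFactors.card * FF2 [] n := by
  have h1 : ∑ w : Pat n, (if ck (fin2 n w) = 0 then (1 : ℝ) else 0) =
      ∑ u : PF n → ZMod 2, (if ck (MM2 n u) = 0 then (1 : ℝ) else 0) := by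
    refine Fintype.sum_equiv
      (Equiv.addRight (fun q : PF n => ∑ r ∈ univ.erase q, bit ((r : ℕ) : ℤ) (q : ℕ))) _ _
      fun w => ?_
    unfold fin2 MM2
    rw [Mat_eq]
    rfl
  rw [h1]
  unfold FF2 avg
  rw [if_neg (by tauto)]
  simp only [prob2, Fintype.card_coe]
  field_simp

theorem FF2_mem (ε : List (ZMod 2)) (n : ℕ) : 0 ≤ FF2 ε n ∧ FF2 ε n ≤ 1 := by
  unfold FF2
  split_ifs
  · norm_num
  · exact avg_mem fun u => prob2_mem _ _ _ _ _

theorem FF2_zero {n : ℕ} (h : 3 ∣ n ∨ 5 ∣ n) (ε : List (ZMod 2)) : FF2 ε n = 0 := by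
  unfold FF2
  rw [if_pos h]

theorem s2_hyp (hD1 : StmtD1) : S2.Hyp := by
  classical
  refine ⟨FF2_mem, fun n p hp h5 => rfl, ?_, ?_⟩
  · intro n hn ho ε e he
    by_cases h35 : 3 ∣ n ∨ 5 ∣ n
    · refine ⟨fun _ => 0, fun _ => le_rfl, fun p hp _ hpn hpe => ?_, ?_⟩
      · exact FF2_zero (h35.imp (fun h => h.mul_right p) (fun h => h.mul_right p)) ε
      · show ∑ φ : Pat (L15 n), (0 : ℝ) = Fintype.card (Pat (L15 n)) * FF2 (eps e :: ε) n
        rw [FF2_zero h35, mul_zero, sum_const_zero]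
    · push Not at h35
      obtain ⟨h3, h5⟩ := h35
      refine ⟨fun φ => G2 ε e n (res hn.ne_zero φ) (φ (p3 hn.ne_zero)) (φ (p5 hn.ne_zero)),
        fun φ => G2_nonneg _ _ _ _ _ _, fun p hp hp5 hpn hpe => ?_, ?_⟩
      · refine FF2_mul ho hn.ne_zero hp hp5 hpn h3 h5 ε ?_
        unfold eps
        rcases he with rfl | rfl
        · rw [hpe]
        · rw [hpe]
      · show ∑ φ : Pat (L15 n), _ = (Fintype.card (Pat (L15 n)) : ℝ) * FF2 (eps e :: ε) n
        rw [sum_split hn.ne_zero h3 h5, G2_sum h3 h5, card_L15' hn.ne_zero h3 h5]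
  · intro n hn ho e he
    have hn0 := hn.ne_zero
    by_cases h35 : 3 ∣ n ∨ 5 ∣ n
    · refine ⟨∅, ∅, fun p _ _ _ _ h => absurd h (notMem_empty _), fun p _ _ _ _ h => ?_, ?_, ?_⟩
      · exfalso
        obtain ⟨h1, h2⟩ := h
        rcases h35 with h | h
        · have := h.mul_right p
          omega
        · have := h.mul_right p
          omega
      · show FF2 [] n * _ ≤ _
        rw [FF2_zero h35, zero_mul, card_empty, Nat.cast_zero]
      · rw [card_empty, Nat.cast_zero]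
        positivity
    · push Not at h35
      obtain ⟨h3, h5⟩ := h35
      have hcard : ∀ F : Pat n → ℝ, ∑ φ : Pat (L15 n),
          (if φ (p3 hn0) = bit (n : ℤ) 3 ∧ φ (p5 hn0) = bit (n : ℤ) 5 then F (res hn0 φ) else 0) =
          ∑ w : Pat n, F w := by
        intro F
        rw [sum_split hn0 h3 h5 (fun w b3 b5 =>
          if b3 = bit (n : ℤ) 3 ∧ b5 = bit (n : ℤ) 5 then F w else 0)]
        refine sum_congr rfl fun w _ => ?_
        simp only [ite_and]
        rw [sum_eq_single (bit (n : ℤ) 3)]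
        · simp only [if_true]
          rw [sum_ite_eq' univ, if_pos (mem_univ _)]
        · intro b _ hb
          simp [hb]
        · intro h; exact absurd (mem_univ _) h
      refine ⟨univ.filter (fun φ : Pat (L15 n) =>
          (φ (p3 hn0) = bit (n : ℤ) 3 ∧ φ (p5 hn0) = bit (n : ℤ) 5) ∧
            ck (fin2 n (res hn0 φ)) = 0),
        univ.filter (fun φ : Pat (L15 n) =>
          φ (p3 hn0) = bit (n : ℤ) 3 ∧ φ (p5 hn0) = bit (n : ℤ) 5), ?_, ?_, ?_, ?_⟩
      · intro p hp hp5 hpn hpe hA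
        rw [mem_filter] at hA
        have h1 : OK2 (n * p) := (ok2_iff h3 h5 hp hp5).2 hA.2.1
        exact ⟨h1, fun h4 => hD1 n hn ho h3 h5 p hp hp5 hpn h1 h4 hA.2.2⟩
      · intro p hp hp5 hpn hpe hok
        rw [mem_filter]
        exact ⟨mem_univ _, (ok2_iff h3 h5 hp hp5).1 hok⟩
      · have h1 : ((univ.filter (fun φ : Pat (L15 n) =>
          (φ (p3 hn0) = bit (n : ℤ) 3 ∧ φ (p5 hn0) = bit (n : ℤ) 5) ∧
            ck (fin2 n (res hn0 φ)) = 0)).card : ℝ) = 2 ^ n.primeFactors.card * FF2 [] n := by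
          rw [← sum_fin2 h3 h5, ← hcard (fun w => if ck (fin2 n w) = 0 then (1 : ℝ) else 0),
            card_filter]
          push_cast
          refine sum_congr rfl fun φ _ => ?_
          exact ite_and _ _ _ _
        rw [h1]
        show FF2 [] n * ((Fintype.card (Pat (L15 n)) : ℝ) / 2 ^ 2) ≤ _
        rw [card_L15' hn0 h3 h5]
        apply le_of_eq
        rw [pow_add]
        field_simp
      · have h1 : ((univ.filter (fun φ : Pat (L15 n) =>
          φ (p3 hn0) = bit (n : ℤ) 3 ∧ φ (p5 hn0) = bit (n : ℤ) 5)).card : ℝ) =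
            2 ^ n.primeFactors.card := by
          have h2 := hcard (fun _ => (1 : ℝ))
          rw [card_filter]
          push_cast
          rw [h2, sum_const, card_univ, Fintype.card_fun, ZMod.card, Fintype.card_coe,
            nsmul_eq_mul]
          push_cast
          ring
        rw [h1]
        show _ ≤ (Fintype.card (Pat (L15 n)) : ℝ) / 2 ^ 2
        rw [card_L15' hn0 h3 h5]
        apply le_of_eq
        rw [pow_add]
        field_simp

theorem rec2_MM2 (n : ℕ) (hodd : Odd n) (u : PF n → ZMod 2) :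
    Rec2 (MM2 n u) (extv (mu n) 0) (extv 0 1) := by
  refine ⟨?_, ?_, ?_⟩
  · intro a b hab ha hb
    match a, b with
    | none, _ => exact absurd ha one_ne_zero
    | some _, none => exact absurd hb one_ne_zero
    | some q, some q' =>
      have hne : q ≠ q' := fun h => hab (by rw [h])
      have h := rec_AA n hodd q q' hne
      show (AA n + Matrix.diagonal u) q q' + (AA n + Matrix.diagonal u) q' q = mu n q * mu n q'
      rw [Matrix.add_apply, Matrix.add_apply, Matrix.diagonal_apply_ne _ hne,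
        Matrix.diagonal_apply_ne _ hne.symm, add_zero, add_zero]
      exact h
  · intro a b ha hb
    match a, b with
    | none, none => rfl
    | none, some _ => exact absurd hb zero_ne_one
    | some _, _ => exact absurd ha zero_ne_one
  · intro a ha
    match a with
    | none => rfl
    | some _ => exact absurd ha zero_ne_one

theorem s2_rm (hRM : StmtRMg) : S2.StmtRM := by
  intro η B hη
  obtain ⟨h, k, hk⟩ := hRM η (2 * B) hη
  refine ⟨h, k, fun ε m d hm ho hmd hok hc hB => ?_⟩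
  obtain ⟨hok3, hok5⟩ := hok
  have h3 : ¬ 3 ∣ m := fun h => by
    have := h.trans hmd
    omega
  have h5 : ¬ 5 ∣ m := fun h => by
    have := h.trans hmd
    omega
  have h1 := hk ε (Option (PF m)) (PF m → ZMod 2) (fun u => MM2 m u) (extv (mu m) 0) (extv 0 1)
    (fun u => rec2_MM2 m ho u) hc ?_
  · show η ≤ FF2 ε m
    unfold FF2 avg
    rw [if_neg (by tauto)]
    rw [Fintype.card_fun, ZMod.card] at h1
    push_cast at h1
    exact h1
  · have h2 : ∑ u : PF m → ZMod 2, (2 : ℝ) ^ ck (MM2 m u) ≤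
        2 * ∑ u : PF m → ZMod 2, (2 : ℝ) ^ ck (AA m + Matrix.diagonal u) := by
      rw [mul_sum]
      refine sum_le_sum fun u _ => ?_
      have h4 : ck (MM2 m u) ≤ ck (AA m + Matrix.diagonal u) + 1 := ck_ext_le _ _ _ _
      calc (2 : ℝ) ^ ck (MM2 m u) ≤ 2 ^ (ck (AA m + Matrix.diagonal u) + 1) :=
            pow_le_pow_right₀ (by norm_num) h4
        _ = _ := by rw [pow_succ]; ring
    have h5 : (∑ u : PF m → ZMod 2, (2 : ℝ) ^ ck (AA m + Matrix.diagonal u)) /
        2 ^ Fintype.card (PF m) ≤ B := hB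
    rw [Fintype.card_fun, ZMod.card]
    push_cast
    rw [div_le_iff₀ (by positivity)] at h5 ⊢
    linarith

theorem stmtS2 : StmtS2 := fun hD1 hRM => ⟨s2_hyp hD1, s2_rm hRM⟩

end Vale.Agent.P017.R3.H224
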